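import Vale.Agent.P226.H112.Norm
import Mathlib.Analysis.InnerProductSpace.GramMatrix
import Mathlib.Algebra.Order.Chebyshev

/-!
Sharpness of the clustering inequality: discretised Gaussian kernels.
-/

open MeasureTheory ProbabilityTheory Filter Topology
open scoped RealInnerProductSpace ENNReal NNReal

namespace Vale.Agent.P226.H112

variable {d : ℕ}

/-- The direction of a vector. -/
noncomputable def dir (x : EuclideanSpace ℝ (Fin d)) : EuclideanSpace ℝ (Fin d) := ‖x‖⁻¹ • x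

lemma norm_dir_le (x : EuclideanSpace ℝ (Fin d)) : ‖dir x‖ ≤ 1 := by
  rw [dir, norm_smul, norm_inv, norm_norm]
  exact inv_mul_le_one

lemma inner_dir (x : EuclideanSpace ℝ (Fin d)) : ⟪x, dir x⟫ = ‖x‖ := by
  rw [dir, inner_smul_right, real_inner_self_eq_norm_sq]
  by_cases h : ‖x‖ = 0
  · simp [h]
  · field_simp

lemma stronglyMeasurable_dir : StronglyMeasurable (dir (d := d)) := by
  unfold dir
  exact (by fun_prop : Measurable fun x : EuclideanSpace ℝ (Fin d) => ‖x‖⁻¹ • x).stronglyMeasurable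

/-- Finite partitions on which the first moments are nearly radial. -/
lemma exists_cells (d : ℕ) {ε : ℝ} (hε : 0 < ε) :
    ∃ (n : ℕ) (C : Fin n → Set (EuclideanSpace ℝ (Fin d))),
      (∀ i, MeasurableSet (C i)) ∧ (Pairwise fun i j => Disjoint (C i) (C j)) ∧
      (⋃ i, C i = Set.univ) ∧
      ∫ x, ‖x‖ ∂(stdGaussian (EuclideanSpace ℝ (Fin d))) - ε ≤
        ∑ i, ‖∫ x in C i, x ∂(stdGaussian (EuclideanSpace ℝ (Fin d)))‖ := by
  set μ := stdGaussian (EuclideanSpace ℝ (Fin d)) with hμ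
  have hid : Integrable (fun x : EuclideanSpace ℝ (Fin d) => x) μ :=
    IsGaussian.integrable_id (μ := μ)
  set s : ℕ → SimpleFunc (EuclideanSpace ℝ (Fin d)) (EuclideanSpace ℝ (Fin d)) :=
    stronglyMeasurable_dir.approxBounded 1 with hs
  have hsb : ∀ n x, ‖s n x‖ ≤ 1 := fun n x =>
    StronglyMeasurable.norm_approxBounded_le _ zero_le_one n x
  have ht : ∀ x, Tendsto (fun n => s n x) atTop (𝓝 (dir x)) := fun x =>
    StronglyMeasurable.tendsto_approxBounded_of_norm_le _ (norm_dir_le x)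
  have hlim : Tendsto (fun n => ∫ x, ⟪x, s n x⟫ ∂μ) atTop (𝓝 (∫ x, ‖x‖ ∂μ)) := by
    refine tendsto_integral_of_dominated_convergence (fun x => ‖x‖) (fun n => ?_) hid.norm
      (fun n => ?_) ?_
    · exact (measurable_id.inner (s n).measurable).aestronglyMeasurable
    · refine Eventually.of_forall fun x => (norm_inner_le_norm _ _).trans ?_
      exact mul_le_of_le_one_right (norm_nonneg _) (hsb n x)
    · refine Eventually.of_forall fun x => ?_
      rw [← inner_dir x]
      exact tendsto_const_nhds.inner (ht x)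
  obtain ⟨N, hN⟩ := ((tendsto_order.1 hlim).1 (∫ x, ‖x‖ ∂μ - ε) (by linarith)).exists
  set e := (s N).range.equivFin.symm with he
  set C : Fin (s N).range.card → Set (EuclideanSpace ℝ (Fin d)) :=
    fun i => (s N) ⁻¹' {(e i : EuclideanSpace ℝ (Fin d))} with hC
  have hCm : ∀ i, MeasurableSet (C i) := fun i => (s N).measurableSet_fiber _
  have hCd : Pairwise fun i j => Disjoint (C i) (C j) := fun i j hij => by
    refine Set.disjoint_left.2 fun x hx hx' => hij (e.injective (Subtype.ext ?_))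
    rw [hC, Set.mem_preimage, Set.mem_singleton_iff] at hx hx'
    rw [← hx, ← hx']
  have hCu : ⋃ i, C i = Set.univ := by
    refine Set.eq_univ_iff_forall.2 fun x => Set.mem_iUnion.2
      ⟨e.symm ⟨s N x, (s N).mem_range_self x⟩, ?_⟩
    simp [hC]
  refine ⟨_, C, hCm, hCd, hCu, hN.le.trans ?_⟩
  have hin : Integrable (fun x => (⟪x, s N x⟫ : ℝ)) μ := by
    refine hid.norm.mono (measurable_id.inner (s N).measurable).aestronglyMeasurable
      (Eventually.of_forall fun x => (norm_inner_le_norm _ _).trans ?_)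
    rw [norm_norm]
    exact mul_le_of_le_one_right (norm_nonneg _) (hsb N x)
  have h1 : ∫ x, ⟪x, s N x⟫ ∂μ = ∑ i, ∫ x in C i, ⟪x, s N x⟫ ∂μ := by
    rw [← integral_iUnion_fintype hCm hCd fun i => hin.integrableOn, hCu, setIntegral_univ]
  rw [h1]
  refine Finset.sum_le_sum fun i _ => ?_
  have h2 : ∫ x in C i, ⟪x, s N x⟫ ∂μ = ⟪∫ x in C i, x ∂μ, (e i : EuclideanSpace ℝ (Fin d))⟫ := by
    rw [setIntegral_congr_fun (hCm i) (g := fun x => ⟪x, (e i : EuclideanSpace ℝ (Fin d))⟫)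
      fun x hx => ?_]
    · rw [real_inner_comm, ← integral_inner (𝕜 := ℝ) hid.integrableOn]
      exact integral_congr_ae (Eventually.of_forall fun x => real_inner_comm _ _)
    · have : s N x = e i := hx
      simp only [this]
  rw [h2]
  obtain ⟨x, hx⟩ := (s N).mem_range.1 (e i).2
  refine (real_inner_le_norm _ _).trans (mul_le_of_le_one_right (norm_nonneg _) ?_)
  rw [← hx]
  exact hsb N x

/-- The Hilbert-Schmidt bound. -/
lemma trace_bound {n : ℕ} (y u : Fin n → EuclideanSpace ℝ (Fin d)) :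
    (∑ i, ⟪y i, u i⟫) ^ 2 ≤ d * ∑ i, ∑ j, ⟪y i, y j⟫ * ⟪u i, u j⟫ := by
  set r : Fin d → Fin d → ℝ := fun α β => ∑ i, y i α * u i β with hr
  have h1 : ∑ i, ⟪y i, u i⟫ = ∑ α, r α α := by
    rw [hr]
    simp only
    rw [Finset.sum_comm]
    refine Finset.sum_congr rfl fun i _ => ?_
    rw [PiLp.inner_apply]
    refine Finset.sum_congr rfl fun α _ => ?_
    simp [mul_comm]
  have h2 : ∑ i, ∑ j, ⟪y i, y j⟫ * ⟪u i, u j⟫ = ∑ α, ∑ β, r α β ^ 2 := by
    have e1 : ∀ i j, (⟪y i, y j⟫ : ℝ) * ⟪u i, u j⟫ =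
        ∑ α, ∑ β, (y i α * u i β) * (y j α * u j β) := fun i j => by
      rw [PiLp.inner_apply, PiLp.inner_apply, Finset.sum_mul_sum]
      refine Finset.sum_congr rfl fun α _ => Finset.sum_congr rfl fun β _ => ?_
      simp
      ring
    simp_rw [e1]
    have e2 : ∀ α β, r α β ^ 2 = ∑ i, ∑ j, (y i α * u i β) * (y j α * u j β) := fun α β => by
      rw [sq, hr]
      simp only
      rw [Finset.sum_mul_sum]
    simp_rw [e2]
    calc ∑ i, ∑ j, ∑ α, ∑ β, (y i α * u i β) * (y j α * u j β)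
        = ∑ i, ∑ α, ∑ j, ∑ β, (y i α * u i β) * (y j α * u j β) :=
          Finset.sum_congr rfl fun i _ => Finset.sum_comm
      _ = ∑ α, ∑ i, ∑ j, ∑ β, (y i α * u i β) * (y j α * u j β) := Finset.sum_comm
      _ = ∑ α, ∑ i, ∑ β, ∑ j, (y i α * u i β) * (y j α * u j β) :=
          Finset.sum_congr rfl fun α _ => Finset.sum_congr rfl fun i _ => Finset.sum_comm
      _ = ∑ α, ∑ β, ∑ i, ∑ j, (y i α * u i β) * (y j α * u j β) :=
          Finset.sum_congr rfl fun α _ => Finset.sum_comm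
  rw [h1, h2]
  have h3 : (∑ α, r α α) ^ 2 ≤ (Finset.univ : Finset (Fin d)).card * ∑ α, r α α ^ 2 :=
    sq_sum_le_card_mul_sum_sq
  rw [Finset.card_univ, Fintype.card_fin] at h3
  refine h3.trans (mul_le_mul_of_nonneg_left ?_ (by positivity))
  exact Finset.sum_le_sum fun α _ =>
    Finset.single_le_sum (f := fun β => r α β ^ 2) (fun β _ => sq_nonneg _) (Finset.mem_univ α)

/-- The value of a clustering of the first moments of the cells of a partition. -/
lemma cluster_value {n k : ℕ} {C : Fin n → Set (EuclideanSpace ℝ (Fin d))}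
    (hC : ∀ i, MeasurableSet (C i)) (hd : Pairwise fun i j => Disjoint (C i) (C j))
    (hu : ⋃ i, C i = Set.univ) (σ : Fin n → Fin k) :
    (0 ≤ ∑ i, ∑ j, if σ i = σ j then
      (⟪∫ x in C i, x ∂(stdGaussian (EuclideanSpace ℝ (Fin d))),
        ∫ x in C j, x ∂(stdGaussian (EuclideanSpace ℝ (Fin d)))⟫ : ℝ) else 0) ∧
    (∑ i, ∑ j, if σ i = σ j then
      (⟪∫ x in C i, x ∂(stdGaussian (EuclideanSpace ℝ (Fin d))),
        ∫ x in C j, x ∂(stdGaussian (EuclideanSpace ℝ (Fin d)))⟫ : ℝ) else 0) ≤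
      9 / (8 * Real.pi) := by
  set μ := stdGaussian (EuclideanSpace ℝ (Fin d)) with hμ
  set y : Fin n → EuclideanSpace ℝ (Fin d) := fun i => ∫ x in C i, x ∂μ with hy
  set D : Fin k → Set (EuclideanSpace ℝ (Fin d)) :=
    fun p => ⋃ i ∈ Finset.univ.filter (fun i => σ i = p), C i with hD
  have hid : Integrable (fun x : EuclideanSpace ℝ (Fin d) => x) μ :=
    IsGaussian.integrable_id (μ := μ)
  have hDm : ∀ p, MeasurableSet (D p) := fun p => Finset.measurableSet_biUnion _ fun i _ => hC i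
  have hDint : ∀ p, ∫ x in D p, x ∂μ = ∑ i ∈ Finset.univ.filter (fun i => σ i = p), y i :=
    fun p => integral_biUnion_finset _ (fun i _ => hC i) (fun i _ j _ hij => hd hij)
      fun i _ => hid.integrableOn
  have hDd : Pairwise fun p q => Disjoint (D p) (D q) := fun p q hpq => by
    refine Set.disjoint_left.2 fun x hx hx' => ?_
    simp only [hD, Finset.mem_filter, Finset.mem_univ, true_and, Set.mem_iUnion,
      exists_prop] at hx hx'
    obtain ⟨i, hi, hxi⟩ := hx
    obtain ⟨j, hj, hxj⟩ := hx'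
    have hij : i ≠ j := fun h => hpq (by rw [← hi, ← hj, h])
    exact Set.disjoint_left.1 (hd hij) hxi hxj
  have hDu : ⋃ p, D p = Set.univ := by
    refine Set.eq_univ_iff_forall.2 fun x => ?_
    have : x ∈ ⋃ i, C i := by rw [hu]; trivial
    obtain ⟨i, hi⟩ := Set.mem_iUnion.1 this
    exact Set.mem_iUnion.2 ⟨σ i, by
      simp only [hD, Finset.mem_filter, Finset.mem_univ, true_and, Set.mem_iUnion, exists_prop]
      exact ⟨i, rfl, hi⟩⟩
  have hmain := (final_of_isEmpty_bad fun _ => inferInstance).1 d k D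
    (fun p => (hDm p).nullMeasurableSet) (fun p q hpq => (hDd hpq).aedisjoint)
    (Eventually.of_forall fun x => by rw [hDu]; trivial)
  have hp : ∀ p, ‖∫ x in D p, x ∂μ‖ ^ 2 =
      ∑ i, ∑ j, if σ i = p then (if σ j = p then ⟪y i, y j⟫ else 0) else 0 := fun p => by
    rw [hDint, ← real_inner_self_eq_norm_sq, sum_inner, Finset.sum_filter]
    refine Finset.sum_congr rfl fun i _ => ?_
    by_cases hi : σ i = p
    · simp only [hi, if_true]
      rw [inner_sum, Finset.sum_filter]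
    · simp [hi]
  have hp' : ∑ p, ‖∫ x in D p, x ∂μ‖ ^ 2 =
      ∑ p, ∑ i, ∑ j, if σ i = p then (if σ j = p then (⟪y i, y j⟫ : ℝ) else 0) else 0 :=
    Finset.sum_congr rfl fun p _ => hp p
  have e : ∑ p, ∑ i, ∑ j, (if σ i = p then (if σ j = p then (⟪y i, y j⟫ : ℝ) else 0) else 0) =
      ∑ i, ∑ j, ∑ p, if σ i = p then (if σ j = p then (⟪y i, y j⟫ : ℝ) else 0) else 0 := by
    rw [Finset.sum_comm]
    exact Finset.sum_congr rfl fun i _ => Finset.sum_comm
  have hfin : (∑ i, ∑ j, if σ i = σ j then (⟪y i, y j⟫ : ℝ) else 0) =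
      ∑ p, ‖∫ x in D p, x ∂μ‖ ^ 2 := by
    refine Eq.trans ?_ (hp'.trans e).symm
    refine Finset.sum_congr rfl fun i _ => Finset.sum_congr rfl fun j _ => ?_
    rw [Finset.sum_ite_eq]
    simp only [Finset.mem_univ, if_true]
    exact if_congr eq_comm rfl rfl
  change (0 ≤ ∑ i, ∑ j, if σ i = σ j then (⟪y i, y j⟫ : ℝ) else 0) ∧
    (∑ i, ∑ j, if σ i = σ j then (⟪y i, y j⟫ : ℝ) else 0) ≤ 9 / (8 * Real.pi)
  rw [hfin]
  exact ⟨Finset.sum_nonneg fun p _ => by positivity, hmain⟩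

/-- The level reached by the discretised Gaussian kernel in dimension `d`. -/
lemma tendsto_level : Tendsto (fun d : ℕ => 1 - kap / (2 * (d : ℝ)) - 1 / √(d : ℝ)) atTop (𝓝 1) := by
  have h1 : Tendsto (fun d : ℕ => kap / (2 * (d : ℝ))) atTop (𝓝 0) :=
    tendsto_const_nhds.div_atTop
      (tendsto_natCast_atTop_atTop.const_mul_atTop (by norm_num))
  have h2 : Tendsto (fun d : ℕ => 1 / √(d : ℝ)) atTop (𝓝 0) :=
    tendsto_const_nhds.div_atTop
      (Real.tendsto_sqrt_atTop.comp tendsto_natCast_atTop_atTop)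
  simpa using (tendsto_const_nhds.sub h1).sub h2

/-- **Sharpness.** -/
theorem exists_gap {K : ℝ} (hK : K < 8 * Real.pi / 9) :
    ∃ (n : ℕ) (a b : Matrix (Fin n) (Fin n) ℝ), a.PosSemidef ∧ (∀ i, ∑ j, a i j = 0) ∧
      b.PosSemidef ∧ (∀ i, b i i = 1) ∧
      ∀ (k : ℕ) (σ : Fin n → Fin k),
        K * ∑ i, ∑ j, (if σ i = σ j then a i j else 0) < ∑ i, ∑ j, a i j * b i j := by
  have hpi := Real.pi_pos
  set θ : ℝ := max K 0 * (9 / (8 * Real.pi)) with hθ
  have hθ1 : θ < 1 := by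
    rw [hθ]
    rcases le_total K 0 with h | h
    · rw [max_eq_right h]; simp
    · rw [max_eq_left h]
      calc K * (9 / (8 * Real.pi)) < 8 * Real.pi / 9 * (9 / (8 * Real.pi)) :=
            mul_lt_mul_of_pos_right hK (by positivity)
        _ = 1 := by field_simp
  have hlev : Tendsto (fun d : ℕ => (1 - kap / (2 * (d : ℝ)) - 1 / √(d : ℝ)) ^ 2) atTop (𝓝 1) := by
    simpa using tendsto_level.pow 2
  obtain ⟨d, hd1, hd2, hd3⟩ := (((tendsto_order.1 hlev).1 θ hθ1).and
    (((tendsto_order.1 tendsto_level).1 0 zero_lt_one).and (eventually_gt_atTop 0))).exists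
  obtain ⟨n, C, hCm, hCd, hCu, hCn⟩ := exists_cells d one_pos
  set μ := stdGaussian (EuclideanSpace ℝ (Fin d)) with hμ
  set y : Fin n → EuclideanSpace ℝ (Fin d) := fun i => ∫ x in C i, x ∂μ with hy
  set e₀ : EuclideanSpace ℝ (Fin d) := EuclideanSpace.single ⟨0, hd3⟩ 1 with he₀
  have he₀n : ‖e₀‖ = 1 := by simp [he₀]
  set u : Fin n → EuclideanSpace ℝ (Fin d) := fun i => if y i = 0 then e₀ else ‖y i‖⁻¹ • y i with hu
  have hun : ∀ i, ‖u i‖ = 1 := fun i => by
    by_cases h : y i = 0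
    · simp [hu, h, he₀n]
    · simp only [hu, h, if_false]
      rw [norm_smul, norm_inv, norm_norm, inv_mul_cancel₀ (norm_ne_zero_iff.2 h)]
  have hyu : ∀ i, ⟪y i, u i⟫ = ‖y i‖ := fun i => by
    by_cases h : y i = 0
    · simp [h]
    · simp only [hu, h, if_false]
      rw [inner_smul_right, real_inner_self_eq_norm_sq]
      have := norm_ne_zero_iff.2 h
      field_simp
  have hid : Integrable (fun x : EuclideanSpace ℝ (Fin d) => x) μ :=
    IsGaussian.integrable_id (μ := μ)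
  have hysum : ∑ j, y j = 0 := by
    rw [hy]
    simp only
    rw [← integral_iUnion_fintype hCm hCd fun i => hid.integrableOn, hCu, setIntegral_univ]
    exact integral_id_stdGaussian
  refine ⟨n, Matrix.gram ℝ y, Matrix.gram ℝ u, Matrix.posSemidef_gram ℝ y, fun i => ?_,
    Matrix.posSemidef_gram ℝ u, fun i => ?_, fun k σ => ?_⟩
  · simp_rw [Matrix.gram_apply]
    rw [← inner_sum, hysum, inner_zero_right]
  · rw [Matrix.gram_apply, real_inner_self_eq_norm_sq, hun, one_pow]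
  · simp_rw [Matrix.gram_apply]
    obtain ⟨hc0, hc⟩ := cluster_value hCm hCd hCu σ
    change 0 ≤ ∑ i, ∑ j, (if σ i = σ j then (⟪y i, y j⟫ : ℝ) else 0) at hc0
    change ∑ i, ∑ j, (if σ i = σ j then (⟪y i, y j⟫ : ℝ) else 0) ≤ _ at hc
    have htr := trace_bound y u
    have hd' : (0 : ℝ) < d := by exact_mod_cast hd3
    have hlow := norm_lower hd3
    have hs : 0 < √(d : ℝ) := Real.sqrt_pos.2 hd'
    have hs2 : √(d : ℝ) ^ 2 = d := Real.sq_sqrt hd'.le
    have hL : √(d : ℝ) * (1 - kap / (2 * (d : ℝ)) - 1 / √(d : ℝ)) ≤ ∑ i, ⟪y i, u i⟫ := by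
      simp_rw [hyu]
      refine le_trans ?_ hCn
      refine le_trans (le_of_eq ?_) (sub_le_sub_right hlow 1)
      have hg : ∀ t D : ℝ, 0 < t → t ^ 2 = D →
          t * (1 - kap / (2 * D) - 1 / t) = t - kap / (2 * t) - 1 := by
        rintro t D ht rfl
        field_simp
      exact hg _ _ hs hs2
    have hL0 : 0 ≤ √(d : ℝ) * (1 - kap / (2 * (d : ℝ)) - 1 / √(d : ℝ)) := by positivity
    have h2 : d * (1 - kap / (2 * (d : ℝ)) - 1 / √(d : ℝ)) ^ 2 ≤
        d * ∑ i, ∑ j, ⟪y i, y j⟫ * ⟪u i, u j⟫ := by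
      refine le_trans (le_of_eq ?_) ((pow_le_pow_left₀ hL0 hL 2).trans htr)
      rw [mul_pow, hs2]
    have h3 := le_of_mul_le_mul_left h2 hd'
    have h4 : K * ∑ i, ∑ j, (if σ i = σ j then (⟪y i, y j⟫ : ℝ) else 0) ≤ θ :=
      (mul_le_mul_of_nonneg_right (le_max_left K 0) hc0).trans
        (mul_le_mul_of_nonneg_left hc (le_max_right K 0))
    exact h4.trans_lt (hd1.trans_le h3)

end Vale.Agent.P226.H112
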