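import Vale.Agent.P226.Bdl.B1

/-!
The mean of the norm of a standard Gaussian vector.
-/

open MeasureTheory ProbabilityTheory Filter Topology
open scoped RealInnerProductSpace ENNReal NNReal

namespace Vale.Agent.P226.H112

lemma memLp_sq_gaussianReal : MemLp (fun t : ℝ => t ^ 2) 2 (gaussianReal 0 1) := by
  have h4 : MemLp (id : ℝ → ℝ) 4 (gaussianReal 0 1) := memLp_id_gaussianReal' 4 (by simp)
  rw [memLp_two_iff_integrable_sq (by fun_prop)]
  have := h4.integrable_norm_rpow (by simp) (by simp)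
  refine this.congr (Eventually.of_forall fun t => ?_)
  simp only [id, Real.norm_eq_abs]
  have h : (4 : ℝ≥0∞).toReal = ((4 : ℕ) : ℝ) := by simp
  rw [h, Real.rpow_natCast, ← pow_mul, ← abs_pow]
  exact abs_of_nonneg (by positivity)

/-- The fourth moment constant. -/
noncomputable def kap : ℝ := Var[fun t : ℝ => t ^ 2; gaussianReal 0 1]

lemma kap_nonneg : 0 ≤ kap := variance_nonneg _ _

lemma integral_sq_gaussianReal : ∫ t : ℝ, t ^ 2 ∂(gaussianReal 0 1) = 1 := by
  have h := variance_fun_id_gaussianReal (μ := 0) (v := 1)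
  rw [variance_of_integral_eq_zero (by fun_prop) integral_id_gaussianReal] at h
  simpa using h

/-- The pi Gaussian measure. -/
noncomputable abbrev Q (d : ℕ) : Measure (Fin d → ℝ) := Measure.pi fun _ => gaussianReal 0 1

lemma integrable_sum_sq (d : ℕ) : MemLp (fun x : Fin d → ℝ => ∑ i, x i ^ 2) 2 (Q d) :=
  memLp_finsetSum _ fun i _ =>
    memLp_sq_gaussianReal.comp_measurePreserving (measurePreserving_eval _ i)

lemma integral_sum_sq (d : ℕ) : ∫ x : Fin d → ℝ, ∑ i, x i ^ 2 ∂(Q d) = d := by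
  have h1 : ∀ i : Fin d, Integrable (fun x : Fin d → ℝ => x i ^ 2) (Q d) := fun i =>
    (memLp_sq_gaussianReal.comp_measurePreserving (measurePreserving_eval _ i)).integrable
      (by norm_num)
  rw [integral_finsetSum _ fun i _ => h1 i]
  have h2 : ∀ i : Fin d, ∫ x : Fin d → ℝ, x i ^ 2 ∂(Q d) = 1 := fun i => by
    rw [integral_comp_eval (μ := fun _ : Fin d => gaussianReal 0 1) (f := fun t : ℝ => t ^ 2)
      (by fun_prop), integral_sq_gaussianReal]
  simp [h2]

lemma variance_sum_sq (d : ℕ) : Var[fun x : Fin d → ℝ => ∑ i, x i ^ 2; Q d] = d * kap := by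
  have h := variance_sum_pi (ι := Fin d) (μ := fun _ => gaussianReal 0 1)
    (X := fun _ t => t ^ 2) fun _ => memLp_sq_gaussianReal
  have e : (∑ i : Fin d, fun ω : Fin d → ℝ => ω i ^ 2) = fun x : Fin d → ℝ => ∑ i, x i ^ 2 := by
    ext x
    simp
  rw [e] at h
  rw [h]
  simp [kap]

lemma root_bound {w a : ℝ} (hw : 0 < w) (ha : 0 ≤ a) :
    w + (a ^ 2 - w ^ 2) / (2 * w) - (a ^ 2 - w ^ 2) ^ 2 / (2 * w ^ 3) ≤ a := by
  have h3 : 0 < 2 * w ^ 3 := by positivity
  have e : w + (a ^ 2 - w ^ 2) / (2 * w) - (a ^ 2 - w ^ 2) ^ 2 / (2 * w ^ 3) =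
      (2 * w ^ 4 + (a ^ 2 - w ^ 2) * w ^ 2 - (a ^ 2 - w ^ 2) ^ 2) / (2 * w ^ 3) := by
    field_simp
  rw [e, div_le_iff₀ h3]
  have h : a * (2 * w ^ 3) - (2 * w ^ 4 + (a ^ 2 - w ^ 2) * w ^ 2 - (a ^ 2 - w ^ 2) ^ 2) =
      a * (a + 2 * w) * (a - w) ^ 2 := by ring
  have : 0 ≤ a * (a + 2 * w) * (a - w) ^ 2 := by positivity
  linarith

/-- The mean of the norm. -/
lemma norm_lower {d : ℕ} (hd : 0 < d) :
    √d - kap / (2 * √d) ≤ ∫ x, ‖x‖ ∂(stdGaussian (EuclideanSpace ℝ (Fin d))) := by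
  have hd' : (0 : ℝ) < d := by exact_mod_cast hd
  have hw : 0 < √(d : ℝ) := Real.sqrt_pos.2 hd'
  have hw2 : √(d : ℝ) ^ 2 = d := Real.sq_sqrt hd'.le
  rw [← map_pi_eq_stdGaussian, integral_map (by fun_prop) (by fun_prop)]
  set s : (Fin d → ℝ) → ℝ := fun x => ∑ i, x i ^ 2 with hs
  have hs2 : MemLp s 2 (Q d) := integrable_sum_sq d
  have hsi : Integrable s (Q d) := hs2.integrable (by norm_num)
  have hmean : ∫ x, s x ∂(Q d) = d := integral_sum_sq d
  have hvar : ∫ x, (s x - d) ^ 2 ∂(Q d) = d * kap := by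
    rw [← variance_sum_sq d, variance_eq_integral hs2.aestronglyMeasurable.aemeasurable]
    rw [integral_sum_sq]
  have hsq : ∀ x : Fin d → ℝ, ‖WithLp.toLp 2 x‖ ^ 2 = s x := fun x => by
    rw [EuclideanSpace.real_norm_sq_eq]
  have hpt : ∀ x : Fin d → ℝ, √(d : ℝ) + (s x - d) / (2 * √d) - (s x - d) ^ 2 / (2 * √d ^ 3) ≤
      ‖WithLp.toLp 2 x‖ := fun x => by
    have := root_bound hw (norm_nonneg (WithLp.toLp 2 x))
    rwa [hsq, hw2] at this
  have hsd : MemLp (fun x => s x - d) 2 (Q d) := hs2.sub (memLp_const _)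
  have i1 : Integrable (fun x => (s x - d) / (2 * √d)) (Q d) :=
    (hsd.integrable (by norm_num)).div_const _
  have i2 : Integrable (fun x => (s x - d) ^ 2 / (2 * √d ^ 3)) (Q d) :=
    hsd.integrable_sq.div_const _
  have i0 : Integrable (fun _ : Fin d → ℝ => √(d : ℝ)) (Q d) := integrable_const _
  have i01 : Integrable (fun x => √(d : ℝ) + (s x - d) / (2 * √d)) (Q d) := i0.add i1
  have i3 : Integrable (fun x : Fin d → ℝ => ‖WithLp.toLp 2 x‖) (Q d) := by
    have h : Integrable (fun x : EuclideanSpace ℝ (Fin d) => ‖x‖)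
        (stdGaussian (EuclideanSpace ℝ (Fin d))) :=
      (IsGaussian.integrable_id (μ := stdGaussian (EuclideanSpace ℝ (Fin d)))).norm
    rw [← map_pi_eq_stdGaussian] at h
    exact h.comp_measurable (by fun_prop)
  have h := integral_mono (i01.sub i2) i3 hpt
  refine le_trans (le_of_eq ?_) h
  have e : ∫ x, (√(d : ℝ) + (s x - d) / (2 * √d) - (s x - d) ^ 2 / (2 * √d ^ 3)) ∂(Q d) =
      √d + (d - d) / (2 * √d) - (d * kap) / (2 * √d ^ 3) := by
    rw [integral_sub i01 i2, integral_add i0 i1, integral_div, integral_div, hvar,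
      integral_sub hsi (integrable_const _), hmean]
    simp
  refine Eq.trans ?_ e.symm
  have : (d : ℝ) * kap / (2 * √d ^ 3) = kap / (2 * √d) := by
    have : √(d : ℝ) ^ 3 = d * √d := by rw [pow_succ, hw2]
    rw [this]
    field_simp
  rw [this]
  ring

end Vale.Agent.P226.H112
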