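import Vale.Agent.P226.Bdl.B1
import Mathlib.Probability.Distributions.Gaussian.HasGaussianLaw.Independence

/-!
Gaussian rounding: every measurable partition of `ℝ^m` gives a clustering of unit vectors.
-/

open MeasureTheory ProbabilityTheory
open scoped RealInnerProductSpace ENNReal

namespace Vale.Agent.P226.H112

/-- `ℝ^m`. -/
abbrev E (m : ℕ) := EuclideanSpace ℝ (Fin m)

/-- `m × d` matrices, as `d` columns, with the Hilbert-Schmidt inner product. -/
abbrev H (m d : ℕ) := PiLp 2 (fun _ : Fin d => E m)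

variable {m d : ℕ}

/-- The map `G ↦ G x`. -/
noncomputable def T (m : ℕ) (x : E d) : H m d →L[ℝ] E m :=
  ∑ c, x c • PiLp.proj 2 (fun _ : Fin d => E m) c

/-- The adjoint of `T x`. -/
noncomputable def S (x : E d) (y : E m) : H m d := WithLp.toLp 2 (fun c => x c • y)

lemma T_apply (x : E d) (G : H m d) : T m x G = ∑ c, x c • G c := by
  simp [T]

lemma inner_T (x : E d) (y : E m) (G : H m d) : ⟪y, T m x G⟫ = ⟪S x y, G⟫ := by
  rw [T_apply, inner_sum, PiLp.inner_apply]
  refine Finset.sum_congr rfl fun c _ => ?_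
  simp [S, inner_smul_left, inner_smul_right]

lemma inner_S (x w : E d) (y z : E m) : ⟪S x y, S w z⟫ = ⟪x, w⟫ * ⟪y, z⟫ := by
  rw [PiLp.inner_apply, PiLp.inner_apply, Finset.sum_mul]
  refine Finset.sum_congr rfl fun c _ => ?_
  simp [S, inner_smul_left, inner_smul_right]
  ring

lemma T_add (x w : E d) : T m (x + w) = T m x + T m w := by
  ext1 G
  rw [add_apply, T_apply, T_apply, T_apply, ← Finset.sum_add_distrib]
  refine Finset.sum_congr rfl fun c _ => ?_
  simp [add_smul]

lemma T_smul (t : ℝ) (x : E d) : T m (t • x) = t • T m x := by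
  ext1 G
  rw [smul_apply, T_apply, T_apply, Finset.smul_sum]
  refine Finset.sum_congr rfl fun c _ => ?_
  simp [mul_smul]

/-- The Gaussian measure on matrices. -/
noncomputable abbrev P (m d : ℕ) : Measure (H m d) := stdGaussian (H m d)

lemma map_T (x : E d) (hx : ‖x‖ = 1) : (P m d).map (T m x) = stdGaussian (E m) := by
  have : IsProbabilityMeasure ((P m d).map (T m x)) :=
    Measure.isProbabilityMeasure_map (T m x).continuous.measurable.aemeasurable
  refine Measure.ext_of_charFun ?_
  ext t
  rw [charFun_apply, integral_map (T m x).continuous.measurable.aemeasurable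
    (by fun_prop), charFun_stdGaussian]
  have h : ∀ G : H m d, ⟪T m x G, t⟫ = ⟪G, S x t⟫ := fun G => by
    rw [real_inner_comm, inner_T, real_inner_comm]
  simp_rw [h]
  rw [← charFun_apply, charFun_stdGaussian]
  have : ‖S x t‖ ^ 2 = ‖t‖ ^ 2 := by
    rw [← real_inner_self_eq_norm_sq, inner_S, real_inner_self_eq_norm_sq,
      real_inner_self_eq_norm_sq, hx]
    simp
  norm_cast
  rw [this]

lemma memLp_id : MemLp (id : H m d → H m d) 2 (P m d) :=
  (IsGaussian.hasGaussianLaw_id (μ := P m d)).memLp_two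

lemma cov_T (x w : E d) (y z : E m) :
    cov[fun G => ⟪y, T m x G⟫, fun G => ⟪z, T m w G⟫; P m d] = ⟪x, w⟫ * ⟪y, z⟫ := by
  simp_rw [inner_T]
  rw [← covarianceBilin_apply_eq_cov memLp_id, covarianceBilin_stdGaussian]
  exact inner_S x w y z

lemma memLp_inner (x : E d) (z : E m) : MemLp (fun G : H m d => ⟪z, T m x G⟫) 2 (P m d) := by
  have h := ((IsGaussian.hasGaussianLaw_id (μ := P m d)).map_fun (T m x)).memLp_two
  exact (innerSL ℝ z).comp_memLp' h

lemma integral_inner_T (x : E d) (z : E m) : ∫ G, ⟪z, T m x G⟫ ∂(P m d) = 0 := by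
  have h : ∀ G : H m d, ⟪z, T m x G⟫ = ((innerSL ℝ z).comp (T m x)) G := fun G => rfl
  simp_rw [h]
  exact integral_strongDual_stdGaussian _

lemma integral_inner_T_mul (x w : E d) (y z : E m) :
    ∫ G, ⟪y, T m x G⟫ * ⟪z, T m w G⟫ ∂(P m d) = ⟪x, w⟫ * ⟪y, z⟫ := by
  have h := cov_T (m := m) x w y z
  rw [covariance_eq_sub (memLp_inner x y) (memLp_inner w z), integral_inner_T, integral_inner_T] at h
  simpa using h

lemma indep_T {x v : E d} (h : ⟪x, v⟫ = 0) : IndepFun (T m x) (T m v) (P m d) := by
  have hg : HasGaussianLaw (fun G : H m d => (T m x G, T m v G)) (P m d) :=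
    (IsGaussian.hasGaussianLaw_id (μ := P m d)).map_fun ((T m x).prod (T m v))
  refine hg.indepFun_of_covariance_inner fun y z => ?_
  rw [cov_T, h, zero_mul]

/-- The mixed moment of a cell at `x` and a linear functional at `w`. -/
lemma integral_indicator_mul {A : Set (E m)} (hA : MeasurableSet A) (x w : E d) (hx : ‖x‖ = 1)
    (z : E m) :
    ∫ G, (A.indicator (fun _ => (1 : ℝ)) (T m x G)) * ⟪z, T m w G⟫ ∂(P m d) =
      ⟪x, w⟫ * ⟪z, ∫ y in A, y ∂(stdGaussian (E m))⟫ := by
  set t : ℝ := ⟪x, w⟫ with ht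
  set v : E d := w - t • x with hv
  have hw : w = t • x + v := by rw [hv]; abel
  have hxv : ⟪x, v⟫ = 0 := by
    rw [hv, inner_sub_right, inner_smul_right, real_inner_self_eq_norm_sq, hx]
    simp [ht]
  have hm : Measurable (fun G : H m d => A.indicator (fun _ => (1 : ℝ)) (T m x G)) :=
    (measurable_const.indicator hA).comp (T m x).continuous.measurable
  have hb : ∀ G : H m d, ‖A.indicator (fun _ => (1 : ℝ)) (T m x G)‖ ≤ 1 := fun G => by
    by_cases hG : T m x G ∈ A <;> simp [hG]
  have hi : ∀ u : E d, Integrable (fun G : H m d =>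
      (A.indicator (fun _ => (1 : ℝ)) (T m x G)) * ⟪z, T m u G⟫) (P m d) := fun u =>
    ((memLp_inner u z).integrable (by norm_num)).bdd_mul hm.aestronglyMeasurable
      (Filter.Eventually.of_forall hb)
  have hsplit : ∀ G : H m d, (A.indicator (fun _ => (1 : ℝ)) (T m x G)) * ⟪z, T m w G⟫ =
      t * ((A.indicator (fun _ => (1 : ℝ)) (T m x G)) * ⟪z, T m x G⟫) +
        (A.indicator (fun _ => (1 : ℝ)) (T m x G)) * ⟪z, T m v G⟫ := fun G => by
    conv_lhs => rw [hw]
    rw [T_add, T_smul, add_apply, smul_apply,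
      inner_add_right, inner_smul_right]
    ring
  simp_rw [hsplit]
  rw [integral_add ((hi x).const_mul t) (hi v), integral_const_mul]
  have h0 : ∫ G, (A.indicator (fun _ => (1 : ℝ)) (T m x G)) * ⟪z, T m v G⟫ ∂(P m d) = 0 := by
    have hind : IndepFun (fun G : H m d => A.indicator (fun _ => (1 : ℝ)) (T m x G))
        (fun G : H m d => ⟪z, T m v G⟫) (P m d) :=
      (indep_T hxv).comp (measurable_const.indicator hA) (by fun_prop : Measurable fun y : E m =>
        (⟪z, y⟫ : ℝ))
    have := hind.integral_mul_eq_mul_integral hm.aestronglyMeasurable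
      (memLp_inner v z).aestronglyMeasurable
    simp only [Pi.mul_apply] at this
    rw [this, integral_inner_T, mul_zero]
  have h1 : ∫ G, (A.indicator (fun _ => (1 : ℝ)) (T m x G)) * ⟪z, T m x G⟫ ∂(P m d) =
      ⟪z, ∫ y in A, y ∂(stdGaussian (E m))⟫ := by
    have hmap := integral_map (μ := P m d) (φ := T m x)
      (T m x).continuous.measurable.aemeasurable
      (f := fun y : E m => (A.indicator (fun _ => (1 : ℝ)) y) * ⟪z, y⟫)
      ((measurable_const.indicator hA).mul (by fun_prop)).aestronglyMeasurable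
    rw [← hmap, map_T x hx]
    have : (fun y : E m => (A.indicator (fun _ => (1 : ℝ)) y) * ⟪z, y⟫) =
        A.indicator (fun y => ⟪z, y⟫) := by
      ext y
      by_cases hy : y ∈ A <;> simp [hy]
    rw [this, integral_indicator hA]
    have hid : Integrable (fun y : E m => y) ((stdGaussian (E m)).restrict A) :=
      (IsGaussian.integrable_id (μ := stdGaussian (E m))).restrict
    rw [← integral_inner hid]
  rw [h0, h1, add_zero]

end Vale.Agent.P226.H112
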