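import Vale.Agent.P226.H112.Round
import Mathlib.LinearAlgebra.Matrix.PosDef

/-!
The rounding theorem.
-/

open MeasureTheory ProbabilityTheory
open scoped RealInnerProductSpace ENNReal

namespace Vale.Agent.P226.H112

variable {m d : ℕ}

lemma posSemidef_nonneg {n : ℕ} {a : Matrix (Fin n) (Fin n) ℝ} (ha : a.PosSemidef)
    (v : Fin n → ℝ) : 0 ≤ ∑ i, ∑ j, a i j * (v i * v j) := by
  have h := ha.dotProduct_mulVec_nonneg v
  simp only [dotProduct, Matrix.mulVec, Pi.star_apply, star_trivial, Finset.mul_sum] at h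
  refine h.trans_eq (Finset.sum_congr rfl fun i _ => Finset.sum_congr rfl fun j _ => ?_)
  ring

lemma cell_bound {n : ℕ} {A : Set (E m)} (hA : MeasurableSet A)
    {a : Matrix (Fin n) (Fin n) ℝ} (ha : a.PosSemidef) (x : Fin n → E d) (hx : ∀ i, ‖x i‖ = 1) :
    ‖∫ y in A, y ∂(stdGaussian (E m))‖ ^ 2 * ∑ i, ∑ j, a i j * ⟪x i, x j⟫ ≤
      ∑ i, ∑ j, a i j * ∫ G, A.indicator (fun _ => (1 : ℝ)) (T m (x i) G) *
        A.indicator (fun _ => (1 : ℝ)) (T m (x j) G) ∂(P m d) := by
  set z : E m := ∫ y in A, y ∂(stdGaussian (E m)) with hz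
  set F : Fin n → H m d → ℝ := fun i G => A.indicator (fun _ => (1 : ℝ)) (T m (x i) G) with hF
  set L : Fin n → H m d → ℝ := fun i G => ⟪z, T m (x i) G⟫ with hL
  have hFm : ∀ i, Measurable (F i) := fun i =>
    (measurable_const.indicator hA).comp (T m (x i)).continuous.measurable
  have hFb : ∀ i G, ‖F i G‖ ≤ 1 := fun i G => by
    by_cases hG : T m (x i) G ∈ A <;> simp [F, hG]
  have hF2 : ∀ i, MemLp (F i) 2 (P m d) := fun i =>
    MemLp.of_bound (hFm i).aestronglyMeasurable 1 (Filter.Eventually.of_forall (hFb i))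
  have hL2 : ∀ i, MemLp (L i) 2 (P m d) := fun i => memLp_inner (x i) z
  have hFF : ∀ i j, Integrable (fun G => F i G * F j G) (P m d) := fun i j =>
    (hF2 i).integrable_mul (hF2 j)
  have hFL : ∀ i j, Integrable (fun G => F i G * L j G) (P m d) := fun i j =>
    (hF2 i).integrable_mul (hL2 j)
  have hLL : ∀ i j, Integrable (fun G => L i G * L j G) (P m d) := fun i j =>
    (hL2 i).integrable_mul (hL2 j)
  have eFL : ∀ i j, ∫ G, F i G * L j G ∂(P m d) = ⟪x i, x j⟫ * ‖z‖ ^ 2 := fun i j => by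
    rw [← real_inner_self_eq_norm_sq]
    exact integral_indicator_mul hA (x i) (x j) (hx i) z
  have eLL : ∀ i j, ∫ G, L i G * L j G ∂(P m d) = ⟪x i, x j⟫ * ‖z‖ ^ 2 := fun i j => by
    rw [← real_inner_self_eq_norm_sq]
    exact integral_inner_T_mul (x i) (x j) z z
  have key : ∀ i j, ∫ G, (F i G - L i G) * (F j G - L j G) ∂(P m d) =
      (∫ G, F i G * F j G ∂(P m d)) - ⟪x i, x j⟫ * ‖z‖ ^ 2 := fun i j => by
    have e : ∀ G, (F i G - L i G) * (F j G - L j G) =
        F i G * F j G - F i G * L j G - F j G * L i G + L i G * L j G := fun G => by ring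
    simp_rw [e]
    have i1 : Integrable (fun G => F i G * F j G - F i G * L j G) (P m d) :=
      (hFF i j).sub (hFL i j)
    have i2 : Integrable (fun G => F i G * F j G - F i G * L j G - F j G * L i G) (P m d) :=
      i1.sub (hFL j i)
    rw [integral_add i2 (hLL i j), integral_sub i1 (hFL j i), integral_sub (hFF i j) (hFL i j),
      eFL, eFL, eLL, real_inner_comm (x i) (x j)]
    ring
  have hint : ∀ i j, Integrable (fun G => (F i G - L i G) * (F j G - L j G)) (P m d) :=
    fun i j => ((hF2 i).sub (hL2 i)).integrable_mul ((hF2 j).sub (hL2 j))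
  have h0 : 0 ≤ ∫ G, ∑ i, ∑ j, a i j * ((F i G - L i G) * (F j G - L j G)) ∂(P m d) :=
    integral_nonneg fun G => posSemidef_nonneg ha fun i => F i G - L i G
  rw [integral_finsetSum _ fun i _ => integrable_finsetSum _ fun j _ =>
    (hint i j).const_mul (a i j)] at h0
  have h1 : ∀ i, ∫ G, ∑ j, a i j * ((F i G - L i G) * (F j G - L j G)) ∂(P m d) =
      ∑ j, a i j * ((∫ G, F i G * F j G ∂(P m d)) - ⟪x i, x j⟫ * ‖z‖ ^ 2) := fun i => by
    rw [integral_finsetSum _ fun j _ => (hint i j).const_mul (a i j)]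
    refine Finset.sum_congr rfl fun j _ => ?_
    rw [integral_const_mul, key]
  simp_rw [h1] at h0
  have h2 : ∑ i, ∑ j, a i j * ((∫ G, F i G * F j G ∂(P m d)) - ⟪x i, x j⟫ * ‖z‖ ^ 2) =
      ∑ i, ∑ j, a i j * (∫ G, F i G * F j G ∂(P m d)) -
        ‖z‖ ^ 2 * ∑ i, ∑ j, a i j * ⟪x i, x j⟫ := by
    rw [Finset.mul_sum, ← Finset.sum_sub_distrib]
    refine Finset.sum_congr rfl fun i _ => ?_
    rw [Finset.mul_sum, ← Finset.sum_sub_distrib]
    refine Finset.sum_congr rfl fun j _ => ?_
    ring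
  rw [h2] at h0
  linarith

/-- Rounding: a partition of `ℝ^m` with value `F` clusters unit vectors with factor `F`. -/
theorem exists_round {k n : ℕ} (A : Fin k → Set (E m)) (hA : ∀ p, MeasurableSet (A p))
    (hd : Pairwise fun p q => Disjoint (A p) (A q)) (hu : ⋃ p, A p = Set.univ)
    {a : Matrix (Fin n) (Fin n) ℝ} (ha : a.PosSemidef) (x : Fin n → E d) (hx : ∀ i, ‖x i‖ = 1) :
    ∃ σ : Fin n → Fin k,
      (∑ p, ‖∫ y in A p, y ∂(stdGaussian (E m))‖ ^ 2) * ∑ i, ∑ j, a i j * ⟪x i, x j⟫ ≤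
        ∑ i, ∑ j, if σ i = σ j then a i j else 0 := by
  set F : Fin k → Fin n → H m d → ℝ :=
    fun p i G => (A p).indicator (fun _ => (1 : ℝ)) (T m (x i) G) with hF
  have hFm : ∀ p i, Measurable (F p i) := fun p i =>
    (measurable_const.indicator (hA p)).comp (T m (x i)).continuous.measurable
  have hFb : ∀ p i G, ‖F p i G‖ ≤ 1 := fun p i G => by
    by_cases hG : T m (x i) G ∈ A p <;> simp [F, hG]
  have hF2 : ∀ p i, MemLp (F p i) 2 (P m d) := fun p i =>
    MemLp.of_bound (hFm p i).aestronglyMeasurable 1 (Filter.Eventually.of_forall (hFb p i))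
  have hFF : ∀ p i j, Integrable (fun G => F p i G * F p j G) (P m d) := fun p i j =>
    (hF2 p i).integrable_mul (hF2 p j)
  set Φ : H m d → ℝ := fun G => ∑ p, ∑ i, ∑ j, a i j * (F p i G * F p j G) with hΦ
  have hΦi : Integrable Φ (P m d) := integrable_finsetSum _ fun p _ =>
    integrable_finsetSum _ fun i _ => integrable_finsetSum _ fun j _ =>
      (hFF p i j).const_mul (a i j)
  have hΦe : ∫ G, Φ G ∂(P m d) = ∑ p, ∑ i, ∑ j, a i j * ∫ G, F p i G * F p j G ∂(P m d) := by
    rw [integral_finsetSum _ fun p _ => integrable_finsetSum _ fun i _ =>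
      integrable_finsetSum _ fun j _ => (hFF p i j).const_mul (a i j)]
    refine Finset.sum_congr rfl fun p _ => ?_
    rw [integral_finsetSum _ fun i _ => integrable_finsetSum _ fun j _ =>
      (hFF p i j).const_mul (a i j)]
    refine Finset.sum_congr rfl fun i _ => ?_
    rw [integral_finsetSum _ fun j _ => (hFF p i j).const_mul (a i j)]
    exact Finset.sum_congr rfl fun j _ => integral_const_mul _ _
  obtain ⟨G, hG⟩ := exists_integral_le hΦi
  have hex : ∀ i, ∃ p, T m (x i) G ∈ A p := fun i => by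
    have : T m (x i) G ∈ ⋃ p, A p := by rw [hu]; trivial
    simpa using this
  choose σ hσ using hex
  refine ⟨σ, ?_⟩
  have hval : ∀ p i, F p i G = if σ i = p then 1 else 0 := fun p i => by
    by_cases h : σ i = p
    · subst h
      simp [F, hσ i]
    · have : T m (x i) G ∉ A p := fun h' => (Set.disjoint_left.1 (hd h)) (hσ i) h'
      simp [F, this, h]
  have hΦG : Φ G = ∑ i, ∑ j, if σ i = σ j then a i j else 0 := by
    rw [hΦ]
    simp only
    rw [Finset.sum_comm]
    refine Finset.sum_congr rfl fun i _ => ?_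
    rw [Finset.sum_comm]
    refine Finset.sum_congr rfl fun j _ => ?_
    simp_rw [hval]
    rw [← Finset.mul_sum]
    by_cases h : σ i = σ j
    · simp [h]
    · have : ∀ p, ((if σ i = p then (1 : ℝ) else 0) * if σ j = p then 1 else 0) = 0 := fun p => by
        by_cases h1 : σ i = p
        · have h2 : σ j ≠ p := fun h2 => h (h1.trans h2.symm)
          simp [h2]
        · simp [h1]
      simp [this, h]
  rw [← hΦG]
  refine le_trans ?_ hG
  rw [hΦe, Finset.sum_mul]
  exact Finset.sum_le_sum fun p _ => cell_bound (hA p) ha x hx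

end Vale.Agent.P226.H112
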