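import Vale.Agent.P226.H112.Round2
import Mathlib.Analysis.InnerProductSpace.Positive

/-!
The clustering inequality in matrix form.
-/

open MeasureTheory ProbabilityTheory
open scoped RealInnerProductSpace ENNReal

namespace Vale.Agent.P226.H112

/-- A correlation matrix is the Gram matrix of unit vectors. -/
lemma exists_vectors {n : ℕ} {b : Matrix (Fin n) (Fin n) ℝ} (hb : b.PosSemidef) :
    ∃ (d : ℕ) (x : Fin n → E d), ∀ i j, b i j = ⟪x i, x j⟫ := by
  obtain ⟨d, v, hv⟩ := Matrix.posSemidef_iff_eq_sum_vecMulVec.1 hb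
  refine ⟨d, fun i => WithLp.toLp 2 fun c => v c i, fun i j => ?_⟩
  rw [hv, Matrix.sum_apply, PiLp.inner_apply]
  refine Finset.sum_congr rfl fun c _ => ?_
  simp [Matrix.vecMulVec_apply]
  ring

/-- The diagonal of a positive semidefinite matrix can be raised to one. -/
lemma raise_diag {n : ℕ} {b : Matrix (Fin n) (Fin n) ℝ} (hb : b.PosSemidef)
    (h1 : ∀ i, b i i ≤ 1) :
    (b + Matrix.diagonal fun i => 1 - b i i).PosSemidef :=
  hb.add (Matrix.posSemidef_diagonal_iff.2 fun i => sub_nonneg.2 (h1 i))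

theorem cluster_of_partition {m k n : ℕ} (A : Fin k → Set (E m)) (hA : ∀ p, MeasurableSet (A p))
    (hd : Pairwise fun p q => Disjoint (A p) (A q)) (hu : ⋃ p, A p = Set.univ)
    {a b : Matrix (Fin n) (Fin n) ℝ} (ha : a.PosSemidef) (hb : b.PosSemidef)
    (h1 : ∀ i, b i i ≤ 1) :
    ∃ σ : Fin n → Fin k,
      (∑ p, ‖∫ y in A p, y ∂(stdGaussian (E m))‖ ^ 2) * ∑ i, ∑ j, a i j * b i j ≤
        ∑ i, ∑ j, if σ i = σ j then a i j else 0 := by
  obtain ⟨d, x, hx⟩ := exists_vectors (raise_diag hb h1)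
  have hx1 : ∀ i, ‖x i‖ = 1 := fun i => by
    have h := hx i i
    rw [real_inner_self_eq_norm_sq] at h
    simp only [Matrix.add_apply, Matrix.diagonal_apply_eq] at h
    have h2 : ‖x i‖ ^ 2 = 1 := by linarith
    nlinarith [norm_nonneg (x i)]
  obtain ⟨σ, hσ⟩ := exists_round A hA hd hu ha x hx1
  refine ⟨σ, le_trans (mul_le_mul_of_nonneg_left ?_ (Finset.sum_nonneg fun p _ => by positivity)) hσ⟩
  refine Finset.sum_le_sum fun i _ => Finset.sum_le_sum fun j _ => ?_
  rw [← hx i j, Matrix.add_apply]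
  by_cases hij : i = j
  · subst hij
    rw [Matrix.diagonal_apply_eq, mul_add]
    have := mul_nonneg (ha.diag_nonneg (i := i)) (sub_nonneg.2 (h1 i))
    linarith
  · rw [Matrix.diagonal_apply_ne _ hij, add_zero]

/-- **The clustering inequality**, three clusters. -/
theorem cluster_three {n : ℕ} {a b : Matrix (Fin n) (Fin n) ℝ} (ha : a.PosSemidef)
    (hb : b.PosSemidef) (h1 : ∀ i, b i i ≤ 1) :
    ∃ σ : Fin n → Fin 3, ∑ i, ∑ j, a i j * b i j ≤
      8 * Real.pi / 9 * ∑ i, ∑ j, if σ i = σ j then a i j else 0 := by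
  obtain ⟨A, hA, hd, hu, hr⟩ :=
    ((final_of_isEmpty_bad fun _ => inferInstance).2 2 3 le_rfl le_rfl).1
  obtain ⟨σ, hσ⟩ := cluster_of_partition A hA hd hu ha hb h1
  refine ⟨σ, ?_⟩
  have hr' : ∑ p, ‖∫ y in A p, y ∂(stdGaussian (E 2))‖ ^ 2 = 9 / (8 * Real.pi) := hr.symm
  rw [hr'] at hσ
  have hpi := Real.pi_pos
  have := mul_le_mul_of_nonneg_left hσ (show 0 ≤ 8 * Real.pi / 9 by positivity)
  refine le_trans (le_of_eq ?_) this
  field_simp

end Vale.Agent.P226.H112
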